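import Vale.Agent.P160R.SmallEig.Count

/-!
# A product bound for events exposed one after the other
-/

namespace Vale.Agent.P160R.Five

open Finset Matrix
open scoped Classical

/-- If the `t`-th event ignores the later blocks and has fibre probability at most `b` on its own
block, then all `q` events hold together with probability at most `b ^ q`. -/
lemma card_seq_real_le {α : Type*} [Fintype α] [DecidableEq α] {b : ℝ} (hb : 0 ≤ b) :
    ∀ (q : ℕ) (c : Fin q → (α → Bool) → Prop) (K : Fin q → Finset α),
      (∀ t s, t < s → ∀ ω ω' : α → Bool, (∀ e, e ∉ K s → ω e = ω' e) → c t ω → c t ω') →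
      (∀ t (ω₀ : α → Bool), (((univ : Finset (α → Bool)).filter fun (ω : α → Bool) =>
          (∀ e, e ∉ K t → ω e = ω₀ e) ∧ c t ω).card : ℝ) ≤ b * 2 ^ (K t).card) →
      (((univ : Finset (α → Bool)).filter fun (ω : α → Bool) => ∀ t, c t ω).card : ℝ)
        ≤ b ^ q * 2 ^ Fintype.card α
  | 0, c, K, _, _ => by simp
  | q + 1, c, K, hinv, hfib => by
    have ih := card_seq_real_le hb q (fun t => c t.castSucc) (fun t => K t.castSucc)
      (fun t s hts => hinv _ _ (Fin.castSucc_lt_castSucc_iff.2 hts)) (fun t => hfib _)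
    set E := (univ : Finset (α → Bool)).filter fun (ω : α → Bool) => ∀ t, c t ω
    set E' := (univ : Finset (α → Bool)).filter fun (ω : α → Bool) => ∀ t : Fin q, c t.castSucc ω
    set L := Fin.last q
    have h1 : E.card * 2 ^ (K L).card
        = ∑ ω₀ ∈ E', (E.filter fun (ω : α → Bool) => ∀ e, e ∉ K L → ω₀ e = ω e).card := by
      simp only [card_filter]
      rw [sum_comm, ← smul_eq_mul, ← sum_const]
      refine sum_congr rfl fun ω hω => ?_
      rw [← card_filter, ← SmallEig.card_agree (K L) ω]
      congr 1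
      ext ω₀
      simp only [E', mem_filter, mem_univ, true_and]
      exact ⟨fun h => ⟨fun t => hinv t.castSucc L (Fin.castSucc_lt_last t) ω ω₀
        (fun e he => (h e he).symm) ((mem_filter.1 hω).2 _), h⟩, fun h => h.2⟩
    have h2 : (E.card : ℝ) ≤ b * E'.card := by
      refine le_of_mul_le_mul_right ?_ (show (0 : ℝ) < 2 ^ (K L).card by positivity)
      have h1' : (E.card : ℝ) * 2 ^ (K L).card
          = ∑ ω₀ ∈ E', ((E.filter fun (ω : α → Bool) =>
              ∀ e, e ∉ K L → ω₀ e = ω e).card : ℝ) := by exact_mod_cast h1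
      rw [h1']
      refine (sum_le_card_nsmul _ _ (b * 2 ^ (K L).card) fun ω₀ _ => ?_).trans_eq ?_
      · refine le_trans (Nat.cast_le.2 (card_le_card ?_)) (hfib L ω₀)
        intro ω hω
        simp only [E, mem_filter, mem_univ, true_and] at hω ⊢
        exact ⟨fun e he => (hω.2 e he).symm, hω.1 L⟩
      · rw [nsmul_eq_mul]; ring
    calc (E.card : ℝ) ≤ b * E'.card := h2
      _ ≤ b * (b ^ q * 2 ^ Fintype.card α) := mul_le_mul_of_nonneg_left ih hb
      _ = b ^ (q + 1) * 2 ^ Fintype.card α := by ring

end Vale.Agent.P160R.Five
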