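import Vale.Agent.P160R.Cover
import Vale.Agent.P160R.Five.Ratio
import Vale.Agent.P160R.Atom.Linear

/-!
# The covering of short vectors, for lattices
-/

namespace Vale.Agent.P160R.Five

open Matrix Module

set_option linter.unusedSectionVars false

/-- The rational span of a lattice. -/
def spanQ {ν : Type} (U : Submodule ℤ (ν → ℤ)) : Submodule ℚ (ν → ℚ) :=
  Submodule.span ℚ ((fun u i => (u i : ℚ)) '' (U : Set (ν → ℤ)))

/-- Short vectors of a lattice lie in few translates of one sublattice of small determinant. -/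
theorem exists_cover_sublattice :
    ∃ (C : ℝ) (k : ℕ), 0 < C ∧ ∀ (ν : Type) [Fintype ν] [DecidableEq ν]
      (U : Submodule ℤ (ν → ℤ)) (G : Matrix ν ν ℝ), G.PosDef → ∀ D R : ℝ, 1 ≤ D → 0 ≤ R →
      ∃ (U' : Submodule ℤ (ν → ℤ)) (F : Finset (ν → ℤ)), U' ≤ U ∧
        gdet G U' ≤ 2 * D ^ (2 * finrank ℤ U) ∧
        (F.card : ℝ) ≤ Real.exp (C * Real.log (finrank ℤ U + 2) ^ k * (R / D ^ 2 + 1)) ∧
        ∀ v ∈ U, (fun i => (v i : ℝ)) ⬝ᵥ G *ᵥ (fun i => (v i : ℝ)) ≤ R →
          ∃ y ∈ F, (fun i => ((v i - y i : ℤ) : ℚ)) ∈ spanQ U' := by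
  classical
  obtain ⟨C, k, hC, hcov⟩ := short_vectors_cover
  refine ⟨C, k, hC, fun ν _ _ U G hG D R hD hR => ?_⟩
  set A := basisMat U
  have hA := isBasisMat_basisMat U
  have hD2 : (0 : ℝ) < (D ^ 2)⁻¹ := by positivity
  have hpd : ((D ^ 2)⁻¹ • ((toR A)ᵀ * G * toR A)).PosDef :=
    (gram_posDef hG (toR_injective hA.1)).smul hD2
  obtain ⟨r, Z, F, hZ, hdet, hF, hcover⟩ := hcov _ _ hpd (R / D ^ 2) (by positivity)
  have hZi : Function.Injective Z.mulVec := fun a b hab => by
    have h1 : (toQ Z).mulVec (fun i => (a i : ℚ)) = (toQ Z).mulVec (fun i => (b i : ℚ)) := by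
      funext i
      have := congrArg (fun z : ℤ => (z : ℚ)) (congrFun hab i)
      simpa [mulVec, dotProduct, toQ] using this
    exact funext fun i => Int.cast_injective (congrFun (mulVec_injective_iff.2 hZ h1) i)
  set U' : Submodule ℤ (ν → ℤ) := LinearMap.range (A * Z).mulVecLin
  have hU' : IsBasisMat (A * Z) U' := ⟨fun a b hab => hZi (hA.1 (by
    simpa [mulVec_mulVec] using hab)), rfl⟩
  refine ⟨U', F.image A.mulVec, ?_, ?_, (Nat.cast_le.2 Finset.card_image_le).trans hF,
    fun v hv hvR => ?_⟩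
  · rintro _ ⟨a, rfl⟩
    rw [mulVecLin_apply, ← mulVec_mulVec]
    exact hA.mem _
  · rw [gdet_eq G hU', toR_mul, transpose_mul]
    change ((toR Z)ᵀ * ((D ^ 2)⁻¹ • ((toR A)ᵀ * G * toR A)) * toR Z).det ≤ 2 at hdet
    rw [Matrix.mul_smul, Matrix.smul_mul, det_smul, Fintype.card_fin, inv_pow, inv_mul_le_iff₀ (by positivity),
      ← pow_mul] at hdet
    simp only [Matrix.mul_assoc] at hdet ⊢
    refine hdet.trans (le_of_le_of_eq (mul_le_mul_of_nonneg_right (pow_le_pow_right₀ hD ?_)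
      zero_le_two) (mul_comm _ _))
    have := hZ.fintype_card_le_finrank
    simp only [Fintype.card_fin, finrank_fintype_fun_eq_card] at this
    omega
  · obtain ⟨a, rfl⟩ : ∃ a, A.mulVec a = v := by rw [← hA.2] at hv; exact hv
    have he : (fun i => ((A.mulVec a i : ℤ) : ℝ)) = toR A *ᵥ fun c => (a c : ℝ) := by
      funext i; simp [mulVec, dotProduct, toR]
    obtain ⟨y, hy, hmem⟩ := hcover a (by
      rw [smul_mulVec, dotProduct_smul, smul_eq_mul, ← mulVec_mulVec, ← mulVec_mulVec,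
        dotProduct_mulVec _ _ᵀ, vecMul_transpose, ← he, inv_mul_eq_div]
      exact div_le_div_of_nonneg_right hvR (by positivity))
    refine ⟨A.mulVec y, Finset.mem_image_of_mem _ hy, ?_⟩
    have h2 : (fun i => ((A.mulVec a i - A.mulVec y i : ℤ) : ℚ)) =
        (toQ A).mulVecLin (fun c => ((a c - y c : ℤ) : ℚ)) := by
      funext i
      simp [mulVec, dotProduct, toQ, mul_sub, Finset.sum_sub_distrib]
    rw [h2]
    have h3 := Submodule.mem_map_of_mem (f := (toQ A).mulVecLin) hmem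
    refine (Submodule.map_span (toQ A).mulVecLin _).trans_le (Submodule.span_mono ?_) h3
    rintro _ ⟨_, ⟨c, rfl⟩, rfl⟩
    refine ⟨(A * Z).col c, hU'.col_mem c, ?_⟩
    funext i
    simp [mulVec, dotProduct, toQ, Matrix.mul_apply]

/-- The matrix of the projection to the left summand. -/
def leftProj (J σ : Type) [DecidableEq J] : Matrix J (J ⊕ σ) ℤ := fromCols 1 0

lemma leftProj_mulVec {J σ : Type} [Fintype J] [DecidableEq J] [Fintype σ] (v : J ⊕ σ → ℤ) :
    (leftProj J σ).mulVec v = fun j => v (Sum.inl j) := by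
  rw [leftProj, show v = Sum.elim (v ∘ Sum.inl) (v ∘ Sum.inr) from (Sum.elim_comp_inl_inr v).symm,
    fromCols_mulVec_sumElim, one_mulVec, zero_mulVec, add_zero]
  rfl

/-- Cube points whose lifts lie in few translates of a lattice. -/
lemma card_cube_lift {J σ : Type} [Fintype J] [DecidableEq J] [Fintype σ] [DecidableEq σ]
    (U : Submodule ℤ (J ⊕ σ → ℤ)) (F : Finset (J ⊕ σ → ℤ)) (x₀ : J → ℤ) (P : (J → Bool) → Prop)
    (h : ∀ x, P x → ∃ v : J ⊕ σ → ℤ, (∀ j, v (Sum.inl j) = signVec x j - x₀ j) ∧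
      ∃ y ∈ F, (fun i => ((v i - y i : ℤ) : ℚ)) ∈ spanQ U) :
    Nat.card {x // P x} ≤ F.card * 2 ^ finrank ℤ (mapL (leftProj J σ) U) := by
  classical
  set M := mapL (leftProj J σ) U with hM
  set Z := basisMat M
  set W : Submodule ℚ (J → ℚ) := LinearMap.range (toQ Z).mulVecLin
  have hr : finrank ℚ W ≤ finrank ℤ M :=
    (LinearMap.finrank_range_le _).trans (by simp)
  have hW : ∀ w ∈ spanQ U, (fun j => w (Sum.inl j)) ∈ W := by
    intro w hw
    induction hw using Submodule.span_induction with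
    | mem w hw =>
      obtain ⟨u, hu, rfl⟩ := hw
      have hu' : (fun j => u (Sum.inl j)) ∈ M :=
        ⟨u, hu, by rw [mulVecLin_apply, leftProj_mulVec]⟩
      rw [← (isBasisMat_basisMat M).2] at hu'
      obtain ⟨a, ha⟩ := hu'
      refine ⟨fun c => (a c : ℚ), ?_⟩
      funext j
      have := congrArg (fun z : ℤ => (z : ℚ)) (congrFun ha j)
      simpa [mulVec, dotProduct, toQ] using this
    | zero => exact W.zero_mem
    | add a b _ _ ha hb => exact W.add_mem ha hb
    | smul c a _ ha => exact W.smul_mem c ha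
  refine (card_cube_cover W hr (F.image fun y j => x₀ j + y (Sum.inl j)) P fun x hx => ?_).trans
    (Nat.mul_le_mul_right _ Finset.card_image_le)
  obtain ⟨v, hv, y, hy, hvy⟩ := h x hx
  refine ⟨_, Finset.mem_image_of_mem _ hy, ?_⟩
  convert hW _ hvy using 1
  funext j
  simp [hv j]
  ring

end Vale.Agent.P160R.Five
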