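import Vale.Agent.P160R.Five.Defs
import Vale.Agent.P160R.Five.Cost.Cover

/-!
# The block parts of one good row
-/

namespace Vale.Agent.P160R.Five

open Matrix Module Finset
open scoped Classical

set_option linter.unusedSectionVars false

variable {ι : Type} [Fintype ι] [DecidableEq ι]

/-- The chosen minimiser sees `B` only through the exposed rows. -/
lemma minLat_congr {K : ℕ} {B B' : Matrix ι ι ℤ} {Λ : Submodule ℤ (ι → ℤ)} {E : Finset ι}
    (h : rowMat B E = rowMat B' E) : minLat K B Λ E = minLat K B' Λ E := by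
  have key : ∀ Y Y' : Submodule ℤ (E → ℤ), Y = Y' →
      (exists_isMinLat (Fintype.card ι) K Y).choose =
        (exists_isMinLat (Fintype.card ι) K Y').choose := by
    rintro Y Y' rfl; rfl
  exact key _ _ (by rw [imgL, imgL, h])

/-- `CheapRow`, as a property of the exposed rows and of their minimiser. -/
def CheapData (L : ℕ) (D : ℝ) (r₀ : ℕ) (Λ : Submodule ℤ (ι → ℤ)) (J E : Finset ι) (k : ℕ)
    (M : Matrix E ι ℤ) (S : Submodule ℤ (E → ℤ)) : Prop :=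
  ∀ U : Submodule ℤ ((J ⊕ Fin (finrank ℤ S)) → ℤ),
    (∀ w ∈ U, ∀ x ∈ Λ, ∀ a, (basisMat S).mulVec a = M.mulVec x →
      (w ∘ Sum.inr) ⬝ᵥ a = (k : ℤ) * ((w ∘ Sum.inl) ⬝ᵥ fun l : J => x l)) →
    gdet (fromBlocks 1 0 0 ((((Fintype.card ι : ℝ) ^ (3 * L) * (k : ℝ) ^ 2))⁻¹ •
      (toR ((basisMat S)ᵀ * basisMat S))⁻¹)) U ≤ 2 * D ^ (4 * Fintype.card ι) →
      finrank ℤ (mapL (blockProj J (finrank ℤ S)) U) ≤ r₀

/-- `CheapRow` sees `B` only through the exposed rows. -/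
lemma cheapRow_congr {L : ℕ} {D : ℝ} {r₀ : ℕ} {B B' : Matrix ι ι ℤ} {Λ : Submodule ℤ (ι → ℤ)}
    {J E : Finset ι} {k : ℕ} (h : rowMat B E = rowMat B' E) :
    CheapRow L D r₀ B Λ J E k ↔ CheapRow L D r₀ B' Λ J E k := by
  have key : ∀ A : Matrix ι ι ℤ, CheapRow L D r₀ A Λ J E k ↔
      CheapData L D r₀ Λ J E k (rowMat A E) (minLat (4 * L) A Λ E) := fun A => Iff.rfl
  rw [key, key, h, minLat_congr h]

/-- The compression of a functional to a lattice does not increase its norm. -/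
lemma compression_le {α β : Type} [Fintype α] [Fintype β] [DecidableEq β] (Z : Matrix α β ℝ)
    (hZ : (Zᵀ * Z).PosDef) (φ : α → ℝ) :
    (Zᵀ *ᵥ φ) ⬝ᵥ (Zᵀ * Z)⁻¹ *ᵥ (Zᵀ *ᵥ φ) ≤ φ ⬝ᵥ φ := by
  set u := (Zᵀ * Z)⁻¹ *ᵥ (Zᵀ *ᵥ φ) with hu
  have h1 : (Zᵀ * Z) *ᵥ u = Zᵀ *ᵥ φ := by
    rw [hu, mulVec_mulVec, Matrix.mul_nonsing_inv _ hZ.det_pos.ne'.isUnit, one_mulVec]
  have h2 : φ ⬝ᵥ Z *ᵥ u = (Zᵀ *ᵥ φ) ⬝ᵥ u := by
    rw [dotProduct_mulVec, ← mulVec_transpose]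
  have h3 : (Z *ᵥ u) ⬝ᵥ (Z *ᵥ u) = (Zᵀ *ᵥ φ) ⬝ᵥ u := by
    rw [dotProduct_mulVec _ Z u, ← mulVec_transpose, mulVec_mulVec, h1]
  have h0 : 0 ≤ (φ - Z *ᵥ u) ⬝ᵥ (φ - Z *ᵥ u) :=
    Finset.sum_nonneg fun l _ => mul_self_nonneg _
  rw [sub_dotProduct, dotProduct_sub, dotProduct_sub, dotProduct_comm (Z *ᵥ u) φ, h2, h3] at h0
  linarith

lemma gramInt_posDef {E : Type} [Fintype E] [DecidableEq E] (S : Submodule ℤ (E → ℤ)) :
    (toR ((basisMat S)ᵀ * basisMat S)).PosDef := by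
  rw [toR_mul, show toR (basisMat S)ᵀ = (toR (basisMat S))ᵀ from rfl]
  simpa using gram_posDef PosDef.one (toR_injective (isBasisMat_basisMat S).1)

lemma rowForm_posDef (L : ℕ) (B : Matrix ι ι ℤ) (Λ : Submodule ℤ (ι → ℤ)) (J E : Finset ι)
    {k : ℕ} (hk : 1 ≤ k) (hm : 1 ≤ Fintype.card ι) : (rowForm L B Λ J E k).PosDef := by
  have hc : (0 : ℝ) < ((Fintype.card ι : ℝ) ^ (3 * L) * (k : ℝ) ^ 2)⁻¹ := by
    have : (0 : ℝ) < k := by exact_mod_cast hk
    have : (0 : ℝ) < Fintype.card ι := by exact_mod_cast hm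
    positivity
  have h2 := (gramInt_posDef (minLat (4 * L) B Λ E)).inv.smul hc
  rw [posDef_iff_dotProduct_mulVec]
  refine ⟨?_, fun {z} hz => ?_⟩
  · exact IsHermitian.fromBlocks isHermitian_one (by simp) h2.1
  · rw [star_trivial, ← Sum.elim_comp_inl_inr z]
    simp only [rowForm, fromBlocks_mulVec, zero_mulVec, one_mulVec, add_zero, zero_add,
      sumElim_dotProduct_sumElim, Sum.elim_comp_inl, Sum.elim_comp_inr]
    rcases eq_or_ne (z ∘ Sum.inr) 0 with h | h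
    · rw [h, mulVec_zero, dotProduct_zero, add_zero]
      refine lt_of_le_of_ne (Finset.sum_nonneg fun l _ => mul_self_nonneg _) fun h0 => hz ?_
      have := dotProduct_self_eq_zero.1 h0.symm
      rw [← Sum.elim_comp_inl_inr z, h, this]
      funext l; rcases l with _ | _ <;> rfl
    · have := h2.dotProduct_mulVec_pos h
      rw [star_trivial] at this
      have : 0 ≤ (z ∘ Sum.inl) ⬝ᵥ (z ∘ Sum.inl) := Finset.sum_nonneg fun l _ => mul_self_nonneg _
      linarith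

/-- The block parts of rows that are good at one cheap index `k` are few. -/
lemma card_goodAt_le {C : ℝ} {kc : ℕ}
    (hcov : ∀ (ν : Type) [Fintype ν] [DecidableEq ν]
      (U : Submodule ℤ (ν → ℤ)) (G : Matrix ν ν ℝ), G.PosDef → ∀ D R : ℝ, 1 ≤ D → 0 ≤ R →
      ∃ (U' : Submodule ℤ (ν → ℤ)) (F : Finset (ν → ℤ)), U' ≤ U ∧
        gdet G U' ≤ 2 * D ^ (2 * finrank ℤ U) ∧
        (F.card : ℝ) ≤ Real.exp (C * Real.log (finrank ℤ U + 2) ^ kc * (R / D ^ 2 + 1)) ∧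
        ∀ v ∈ U, (fun i => (v i : ℝ)) ⬝ᵥ G *ᵥ (fun i => (v i : ℝ)) ≤ R →
          ∃ y ∈ F, (fun i => ((v i - y i : ℤ) : ℚ)) ∈ spanQ U')
    (hC : 0 ≤ C) {L r₀ : ℕ} {D : ℝ} (hD : 1 ≤ D) (hm : 4 ≤ Fintype.card ι)
    (B₀ : Matrix ι ι ℤ) (Λ : Submodule ℤ (ι → ℤ)) {J E : Finset ι} {i : ι} {k : ℕ}
    (hcheap : CheapRow L D r₀ B₀ Λ J E k) (P : (J → Bool) → Prop)
    (hP : ∀ x, P x → ∃ B : Matrix ι ι ℤ, rowMat B E = rowMat B₀ E ∧
      (∀ l : J, B i l = signVec x l) ∧ (∀ l, l ∉ J → B i l = B₀ i l) ∧ GoodAt L B Λ E i k) :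
    (Nat.card {x // P x} : ℝ) ≤ Real.exp (C * Real.log (2 * (Fintype.card ι : ℝ) + 2) ^ kc *
      (5 * (Fintype.card ι : ℝ) / D ^ 2 + 1)) * 2 ^ r₀ := by
  by_cases hex : ∃ x, P x
  swap
  · have : IsEmpty {x // P x} := ⟨fun x => hex ⟨x.1, x.2⟩⟩
    rw [Nat.card_of_isEmpty, Nat.cast_zero]
    positivity
  obtain ⟨x₁, hx₁⟩ := hex
  obtain ⟨B₁, hB₁, hJ₁, hO₁, hk, hkL, ψ₁, hψ₁, hz₁, he₁⟩ := hP x₁ hx₁
  set m := Fintype.card ι with hmdef
  have hmR : (4 : ℝ) ≤ m := by exact_mod_cast hm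
  have hS₁ : minLat (4 * L) B₁ Λ E = minLat (4 * L) B₀ Λ E := by
    exact minLat_congr hB₁
  rw [hS₁] at hz₁
  rw [hB₁] at he₁
  set U := rowLat L B₀ Λ J E k
  set Q := rowForm L B₀ Λ J E k with hQ
  obtain ⟨U', F, hU', hdet, hF, hcover⟩ :=
    hcov _ U Q (rowForm_posDef L B₀ Λ J E hk (by omega)) D (5 * m) hD (by positivity)
  have hdim : finrank ℤ U ≤ 2 * m := by
    refine (Submodule.finrank_le U).trans ?_
    rw [finrank_fintype_fun_eq_card, Fintype.card_sum, Fintype.card_fin, Fintype.card_coe]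
    have h1 : finrank ℤ (minLat (4 * L) B₀ Λ E) ≤ E.card :=
      (Submodule.finrank_le _).trans (by rw [finrank_fintype_fun_eq_card, Fintype.card_coe])
    have := J.card_le_univ
    have := E.card_le_univ
    omega
  have hr := hcheap U' hU' (hdet.trans (mul_le_mul_of_nonneg_left
    (pow_le_pow_right₀ hD (by omega)) zero_le_two))
  have hlift : ∀ x, P x → ∃ v : J ⊕ Fin (finrank ℤ (minLat (4 * L) B₀ Λ E)) → ℤ,
      (∀ j, v (Sum.inl j) = signVec x j - signVec x₁ j) ∧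
      ∃ y ∈ F, (fun l => ((v l - y l : ℤ) : ℚ)) ∈ spanQ U' := by
    intro x hx
    obtain ⟨B, hB, hJB, hOB, -, -, ψ, hψ, hz, he⟩ := hP x hx
    have hS' : minLat (4 * L) B Λ E = minLat (4 * L) B₀ Λ E := minLat_congr hB
    rw [hS'] at hz
    rw [hB] at he
    choose n hn using fun c => hz _ ((isBasisMat_basisMat (minLat (4 * L) B₀ Λ E)).col_mem c)
    choose n₁ hn₁ using fun c => hz₁ _ ((isBasisMat_basisMat (minLat (4 * L) B₀ Λ E)).col_mem c)
    set φ : E → ℝ := fun l => ψ l - ψ₁ l with hφ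
    set Z := toR (basisMat (minLat (4 * L) B₀ Λ E)) with hZ
    have hN : ∀ c, ((n c - n₁ c : ℤ) : ℝ) = (k : ℝ) * (Zᵀ *ᵥ φ) c := by
      intro c
      push_cast
      rw [← hn c, ← hn₁ c]
      simp only [mulVec, dotProduct, transpose_apply, hZ, toR, Matrix.map_apply, hφ, col_apply,
        ← mul_sub, ← Finset.sum_sub_distrib]
      congr 1
      exact Finset.sum_congr rfl fun l _ => by ring
    refine ⟨Sum.elim (fun j => signVec x j - signVec x₁ j) (fun c => n c - n₁ c),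
      fun j => rfl, hcover _ ?_ ?_⟩
    · intro y hy a ha
      simp only [Sum.elim_comp_inl, Sum.elim_comp_inr]
      refine Int.cast_injective (α := ℝ) ?_
      have hZa : Z *ᵥ (fun c => (a c : ℝ)) = fun l => ((rowMat B₀ E).mulVec y l : ℝ) := by
        rw [← ha]; funext l; simp [hZ, toR, mulVec, dotProduct]
      have hJsum : ((B i ⬝ᵥ y : ℤ) : ℝ) - ((B₁ i ⬝ᵥ y : ℤ) : ℝ) =
          ∑ j : J, (((signVec x j - signVec x₁ j : ℤ) : ℝ)) * (y j : ℝ) := by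
        simp only [dotProduct, Int.cast_sum, Int.cast_mul, ← Finset.sum_sub_distrib, ← sub_mul,
          Int.cast_sub]
        rw [← Finset.sum_subset (Finset.subset_univ J) fun l _ hl => by
          rw [hOB l hl, hO₁ l hl, sub_self, zero_mul], ← Finset.sum_coe_sort J]
        exact Finset.sum_congr rfl fun j _ => by rw [hJB j, hJ₁ j]
      have h4 : (fun c => ((n c - n₁ c : ℤ) : ℝ)) ⬝ᵥ (fun c => (a c : ℝ)) =
          (k : ℝ) * (φ ⬝ᵥ fun l => ((rowMat B₀ E).mulVec y l : ℝ)) := by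
        rw [← hZa, dotProduct_mulVec, ← mulVec_transpose]
        simp only [dotProduct, Finset.mul_sum]
        exact Finset.sum_congr rfl fun c _ => by rw [hN c]; ring
      calc (((fun c => n c - n₁ c) ⬝ᵥ a : ℤ) : ℝ)
          = (fun c => ((n c - n₁ c : ℤ) : ℝ)) ⬝ᵥ (fun c => (a c : ℝ)) := by
            simp [dotProduct]
        _ = (k : ℝ) * (((B i ⬝ᵥ y : ℤ) : ℝ) - ((B₁ i ⬝ᵥ y : ℤ) : ℝ)) := by
            rw [h4, ← he y hy, ← he₁ y hy]
            congr 1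
            simp only [dotProduct, hφ, ← Finset.sum_sub_distrib, sub_mul]
        _ = _ := by rw [hJsum]; simp [dotProduct]
    · rw [hQ, rowForm]
      have e1 : (fun l => ((Sum.elim (fun j => signVec x j - signVec x₁ j)
          (fun c => n c - n₁ c) l : ℤ) : ℝ)) =
          Sum.elim (fun j : J => ((signVec x j - signVec x₁ j : ℤ) : ℝ))
            ((k : ℝ) • (Zᵀ *ᵥ φ)) := by
        funext l
        rcases l with j | c
        · rfl
        · simpa using hN c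
      rw [e1, fromBlocks_mulVec, sumElim_dotProduct_sumElim]
      simp only [Sum.elim_comp_inl, Sum.elim_comp_inr, zero_mulVec, one_mulVec, add_zero, zero_add,
        smul_mulVec, mulVec_smul, dotProduct_smul, smul_dotProduct, smul_eq_mul, smul_zero]
      have hsq : ∀ j : J, ((signVec x j - signVec x₁ j : ℤ) : ℝ) *
          ((signVec x j - signVec x₁ j : ℤ) : ℝ) ≤ 4 := by
        intro j; simp only [signVec]
        cases x j <;> cases x₁ j <;> norm_num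
      have hz2 : (fun j : J => ((signVec x j - signVec x₁ j : ℤ) : ℝ)) ⬝ᵥ
          (fun j : J => ((signVec x j - signVec x₁ j : ℤ) : ℝ)) ≤ 4 * m := by
        refine (sum_le_card_nsmul _ _ 4 fun j _ => hsq j).trans ?_
        rw [card_univ, Fintype.card_coe, nsmul_eq_mul, mul_comm]
        exact mul_le_mul_of_nonneg_left (Nat.cast_le.2 J.card_le_univ) (by norm_num)
      have hφ2 : φ ⬝ᵥ φ ≤ 4 * (m : ℝ) ^ (2 * L) := by
        have h5 : φ ⬝ᵥ φ ≤ 2 * (ψ ⬝ᵥ ψ) + 2 * (ψ₁ ⬝ᵥ ψ₁) := by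
          simp only [dotProduct, hφ, Finset.mul_sum, ← Finset.sum_add_distrib]
          exact Finset.sum_le_sum fun l _ => by nlinarith [sq_nonneg (ψ l + ψ₁ l)]
        linarith
      have hcomp := compression_le Z (by
        simpa [hZ, toR_mul, show toR (basisMat (minLat (4 * L) B₀ Λ E))ᵀ = (toR (basisMat (minLat (4 * L) B₀ Λ E)))ᵀ from rfl]
          using gramInt_posDef (minLat (4 * L) B₀ Λ E)) φ
      have hG : toR ((basisMat (minLat (4 * L) B₀ Λ E))ᵀ * basisMat (minLat (4 * L) B₀ Λ E)) = Zᵀ * Z := by rw [toR_mul]; rfl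
      rw [hG]
      have hk0 : (0 : ℝ) < k := by exact_mod_cast hk
      have hp : (0 : ℝ) < (m : ℝ) ^ (3 * L) := by positivity
      have hp2 : (m : ℝ) ^ (2 * L) ≤ (m : ℝ) ^ (3 * L) :=
        pow_le_pow_right₀ (by linarith) (by omega)
      have h6 : ((m : ℝ) ^ (3 * L))⁻¹ * ((Zᵀ *ᵥ φ) ⬝ᵥ (Zᵀ * Z)⁻¹ *ᵥ (Zᵀ *ᵥ φ)) ≤ 4 := by
        rw [inv_mul_le_iff₀ hp]
        linarith
      have h7 : ∀ X : ℝ, (k : ℝ) * (((m : ℝ) ^ (3 * L) * (k : ℝ) ^ 2)⁻¹ * ((k : ℝ) * X)) =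
          ((m : ℝ) ^ (3 * L))⁻¹ * X := fun X => by field_simp
      rw [← hmdef, h7]
      linarith
  have hcard := card_cube_lift U' F (fun j => signVec x₁ j) P hlift
  refine (Nat.cast_le.2 (hcard.trans (Nat.mul_le_mul_left _ (Nat.pow_le_pow_right two_pos hr)))).trans ?_
  push_cast
  refine mul_le_mul_of_nonneg_right (hF.trans (Real.exp_le_exp.2 ?_)) (by positivity)
  refine mul_le_mul_of_nonneg_right (mul_le_mul_of_nonneg_left ?_ hC) (by positivity)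
  have h9 : (finrank ℤ U : ℝ) ≤ 2 * m := by exact_mod_cast hdim
  have h10 : (0 : ℝ) ≤ (finrank ℤ U : ℝ) := Nat.cast_nonneg _
  exact pow_le_pow_left₀ (Real.log_nonneg (by linarith))
    (Real.log_le_log (by linarith) (by linarith)) kc

end Vale.Agent.P160R.Five
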